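import Vale.Agent.P287D.Pn.Der
import Vale.Agent.P287D.Pe.Der
import Vale.Agent.P287D.Pe.Ret
import Vale.Agent.P287D.Tg.Dich
import Vale.Agent.P287D.Api.Adj
import Vale.Agent.P287D.Iso.Fin
import Vale.Agent.P287D.Rl.Rel
import Vale.Agent.P287D.Ku.Uk

/-!
# P287D: a moving prime divisor gives a function with a single simple pole
-/

open Set
open Vale.Agent.P297Z Vale.Agent.P287D.Cb

noncomputable section

namespace Vale.Agent.P287D.P8

variable {K : Type} [Field K] [Algebra ℂ K] {n : ℕ} {D : K → K} {Q : Pl K} {x y : K}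

theorem ld_sub (h : De D) (r : Rg Q D) (hx : x ≠ 0) (hy : y ≠ 0) (e : Q.ord x = Q.ord y) :
    D x / x - D y / y ∈ Q.ring := by
  have a := h.ld_mul hx (inv_ne_zero hy)
  rw [h.ld_inv] at a
  simp only [RingHom.id_apply] at a
  have o : Q.ord (x * y⁻¹) = 0 := by
    rw [Pl.ord_mul _ hx (inv_ne_zero hy), Pl.ord_inv, e, add_neg_cancel]
  rw [sub_eq_add_neg, ← a, div_eq_mul_inv]
  exact mul_mem (r _ (mem_ord o.ge)) (inv_mem_ord o)

theorem ld_t (h : De D) (r : Rg Q D) (x : K) : Q.t * (D x / x) ∈ Q.ring :=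
  mul_div_assoc Q.t (D x) x ▸ r.lg_t h x

theorem ord_ge (h : Q.t * x ∈ Q.ring) : -1 ≤ Q.ord x := by
  by_cases z : x = 0
  · simp [z]
  · have := Pl.ord_nonneg_of_mem _ h
    rw [Pl.ord_mul _ Q.t_ne z, Q.ord_t] at this
    omega

theorem core (hK : FF K (n + 1)) {N β : BD K} {s : Finset K} {P : Pl K} (bΛ : Big (mx s))
    (hN : Smp N) (bN : Big N) (dN : Dsc (mx s) N) (kN : Klt (n + 1) (-N)) (y : Bdy n N (-N))
    (o : On n N P) (cβ : β ∈ CarZ K) (hβ : Hull n (mx s) P.δ β) (h : De D)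
    (r : ∀ Q, On n (mx s) Q → Rg Q D ∧ (mx s Q = 0 ∨ Lg Q D)) (l : ¬ Lg P D) :
    ∃ f : K, P.ord f = -1 ∧ ∀ R, R ≠ P → On n N R → 0 ≤ R.ord f := by
  have hΛ := smp_mx s
  have up : ∀ R, On n N R → On n (mx s) R := fun R => Pr.on_mono res' hK hN hΛ dN
  obtain ⟨ε, e, sm⟩ := Gs.dsc_small hΛ hβ.1
  obtain ⟨q, q0, q1⟩ := exists_rat_btwn e
  obtain ⟨a, u, a0, nu, eu⟩ := Rl.smp_carQ (sm (-q : ℚ) (by
    rw [Rat.cast_neg, abs_neg, abs_of_pos q0]; exact q1.le))
    ((carQ_mx s).add ((CarZ.carQ cβ).qsmul (-q)))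
  have du : Dsc (mx s) (mx u) :=
    eu ▸ Gs.dsc_smul hΛ _ (Gs.dsc_add hΛ (Gs.dsc_self hΛ) (Gs.dsc_smul hΛ _ hβ.1))
  let G : {f // f ∈ u ∧ f ≠ 0} → BD K := fun f => dv f.1 + mx u
  have : Finite {f // f ∈ u ∧ f ≠ 0} := (u.finite_toSet.subset fun _ a => a.1).to_subtype
  have G0 : ∀ i, 0 ≤ G i := fun i => dv_add_mx_nonneg i.2.1 i.2.2
  have Ge : ∀ i R, G i R = ((R.ord i.1 + R.mz u : ℤ) : ℝ) := fun i R => by
    simp [G, dv, mx]
  have dG : ∀ i, Dsc (mx s) (G i) := fun i => Gs.dsc_add hΛ (Gs.dsc_prn hΛ (dv_mem_Prn _)) du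
  have cov : ∀ R, ∃ i, G i R = 0 := fun R =>
    let ⟨f, f1, f2, f3⟩ := R.exists_mz nu
    ⟨⟨f, f1, f2⟩, by rw [Ge, f3]; simp⟩
  obtain ⟨f, hf⟩ := Ku.ukv (n + 1) K hK (-N) _ G (fun i => D i.1 / i.1)
    (by simpa using hN.nef) (by simpa using bN) (fun i => ⟨(dG i).car, G0 i⟩) cov
    fun i j R a b => or_iff_not_imp_left.2 fun z => by
      have k := Pr.hart res' hK hΛ bΛ (Gs.dsc_add hΛ (Gs.dsc_add hΛ
        (Gs.dsc_prn hΛ (dv_mem_Prn (D i.1 / i.1 - D j.1 / j.1))) (dG i)) (dG j)) (fun Q oQ => by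
          have g1 := G0 i Q
          have g2 := G0 j Q
          simp only [Pi.add_apply, Pi.zero_apply, Ge, dv_apply] at g1 g2 ⊢
          norm_cast at g1 g2 ⊢
          have g3 := ord_ge (mul_sub Q.t _ _ ▸
            sub_mem (ld_t h (r Q oQ).1 i.1) (ld_t h (r Q oQ).1 j.1))
          by_cases w : Q.ord i.1 = Q.ord j.1
          · have := Pl.ord_nonneg_of_mem _ (ld_sub h (r Q oQ).1 i.2.2 j.2.2 w)
            omega
          · omega) R
      have := kN R
      simp only [Pi.add_apply, Pi.zero_apply, a, b, dv_apply] at k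
      linarith
  have m : ∀ R i, On n N R → G i R = 0 → f - D i.1 / i.1 ∈ R.ring := fun R i oR z =>
    (hf i R z).elim (fun w => (congrArg (· ∈ R.ring) w).mpr (zero_mem _)) fun w => mem_ord (by
      have : ((-1 : ℤ) : ℝ) < (R.ord (f - D i.1 / i.1) : ℝ) := by
        have := y R oR
        push_cast
        linarith
      have := Int.cast_lt.1 this
      omega)
  have od : ∀ R i, On n N R → G i R = 0 → mx s R = 0 → (R.ord i.1 : ℝ) = a * q * P.δ R :=
    fun R i oR z w => by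
      have k := congrFun eu R
      simp only [Pi.smul_apply, Pi.add_apply, smul_eq_mul, w, hβ.2 R (up R oR), Rat.cast_neg] at k
      simp only [G, Pi.add_apply, dv_apply] at z
      linarith
  refine ⟨f, ?_, fun R ne oR => ?_⟩
  · obtain ⟨i, z⟩ := cov P
    have r := r P (up P o)
    have k := od P i o z (r.2.resolve_right l)
    have k0 : P.ord i.1 ≠ 0 := fun w => by
      rw [w, Pl.δ_self] at k
      have : (0 : ℝ) < a := by exact_mod_cast a0
      have := mul_pos this q0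
      simp only [Int.cast_zero] at k
      linarith
    have k1 : f ∉ P.ring := fun w => l (r.1.lg h k0 (by simpa using sub_mem w (m P i o z)))
    have k2 := ord_ge (x := f) (by
      have := add_mem (mul_mem (t_mem P) (m P i o z)) (ld_t h r.1 i.1)
      rwa [← mul_add, sub_add_cancel] at this)
    have k3 : ¬ 0 ≤ P.ord f := fun w => k1 (mem_ord w)
    omega
  · obtain ⟨i, z⟩ := cov R
    have r := r R (up R oR)
    refine Pl.ord_nonneg_of_mem _ (sub_add_cancel f (D i.1 / i.1) ▸ add_mem (m R i oR z) ?_)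
    refine r.2.elim (fun w => ?_) fun w => w _
    have k := od R i oR z w
    rw [Pl.δ_ne ne, mul_zero, Int.cast_eq_zero] at k
    rw [div_eq_mul_inv]
    exact mul_mem (r.1 _ (mem_ord k.ge)) (inv_mem_ord k)

/-- **PEN** -/
theorem pen : Tg.PEN := by
  intro n K K' _ _ _ _ φ N P hK hK' hN bN kN y e t o
  obtain ⟨s, Γ, T, -, -, dN, -, hu⟩ := Api.mod.ex n K hK ∅ {N} finite_empty (finite_singleton N)
    (singleton_subset_iff.2 hN.car)
  obtain ⟨Θ, h, -, p⟩ := Pe.ret_pb e hK hK' finite_empty (toFinite {N, mx s})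
    (insert_subset hN.car (singleton_subset_iff.2 (mx_mem_Car s)))
  have p1 := p N (.inl rfl)
  have p2 := p (mx s) (.inr rfl)
  obtain ⟨D, d1, d2, d3, d4⟩ := Pe.exists_der e hK hK' t
  have o' : On n N (h.pl P) := p1 ▸ (h.on_pl In.hy hK').2 o
  obtain ⟨β, b1, b2⟩ := hu _ (Pr.on_mono res' hK hN T.smp (dN N rfl) o')
  have lg : ∀ Q, Lg (h.pl Q) (fun x => Θ (D (h.inv x))) ↔ Lg Q D := fun Q => by
    simp only [Lg, h.sur.forall, h.inv_apply, ← map_div₀, h.mem_pl]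
  obtain ⟨f, f1, f2⟩ := core (D := fun x => Θ (D (h.inv x))) hK T.big hN bN (dN N rfl) kN y o' b1 b2
    ⟨fun a b => by rw [map_add, d1.add, map_add], fun a b => by
      simp [d1.mul]⟩ (fun Q oQ => by
      obtain ⟨Q, rfl⟩ := h.pl.surjective Q
      have r := Pn.reg_on res' Api.ba hK' e ⟨d1, d2, d3⟩ T.smp
        ((h.on_pl In.hy hK').1 (p2.symm ▸ oQ))
      refine ⟨by simpa only [Rg, h.sur.forall, h.inv_apply, h.mem_pl] using r, ?_⟩
      rw [lg, ← p2, h.pb_pl]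
      refine (e.ok hK' Q).imp (fun w => Trv.pb w _) fun ⟨R, w⟩ => ?_
      exact r.lg d1 w.e_pos.ne' (by rw [d3, zero_div]; exact zero_mem _)) (mt (lg P).1 d4)
  exact ⟨h.pl P, f, o', by
    conv_lhs => rw [← p1]
    exact h.cf_pl In.hy hK' P fun _ => pb φ N, f1, f2⟩

end Vale.Agent.P287D.P8
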